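import Vale.Agent.P092.H368.SN.GeoA
import Vale.Agent.P092.H455.Hm2
import Vale.Agent.P092.H933.HMPA
import Vale.Agent.P092.H411.Blk

/-!
P092 (helper307), Team N, block [N-GAPB], [GB-INST] (U2): for a source group `E` with
`ι : SL_(N+1)(k) →* E`, the group `S = SL_N(k)` commuting with the wall element `ι (bw w)` and the
contracted groups `Ctr (ι (bw w))`, `Ctr (ι (bw w))⁻¹`: normalised by `S`, with the Moore property.
-/

set_option linter.all false

open scoped InnerProductSpace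
open Filter Topology Matrix

namespace Vale.Agent.P092.H307.Gb

open Vale.Agent.P092.RC (Moore GG ct)
open Vale.Agent.P092.SN (bw)
open Vale.Agent.P092.H368.SN (Ctr mem_ctr_inv ur ur_coe uM ur_ctr ct_bw ct_cont ct_ct)
open Vale.Agent.P092.H455 (Nc Nh moore_Nc moore_Nh)
open Vale.Agent.P092.H411.Blk (blk blk_coe bm bm_zz bm_zs bm_sz bm_ss continuous_blk)

/-! ### Contracted elements of a topological group -/

section gen

variable {E S : Type} [Group E] [TopologicalSpace E]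

/-- The contracted elements are contracted along the powers of `b`. -/
theorem con_ctr (b : E) : ∀ n ∈ Ctr b, Tendsto (fun N : ℕ => b ^ N * n * (b ^ N)⁻¹) atTop (𝓝 1) :=
  fun _ h => h

/-- The centraliser of `b` normalises the contracted elements. -/
theorem nrm_ctr [IsTopologicalGroup E] {b s : E} (hs : Commute s b) {n : E} (hn : n ∈ Ctr b) :
    s * n * s⁻¹ ∈ Ctr b := by
  have h1 : Tendsto (fun N : ℕ => s * (b ^ N * n * (b ^ N)⁻¹) * s⁻¹) atTop (𝓝 (s * 1 * s⁻¹)) :=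
    (Tendsto.mul_const _ (Tendsto.const_mul _ hn))
  have h2 : s * 1 * s⁻¹ = 1 := by group
  rw [h2] at h1
  refine h1.congr fun N => ?_
  have h3 : s * b ^ N = b ^ N * s := (hs.pow_right N).eq
  calc s * (b ^ N * n * (b ^ N)⁻¹) * s⁻¹ = (s * b ^ N) * n * (s * b ^ N)⁻¹ := by group
    _ = (b ^ N * s) * n * (b ^ N * s)⁻¹ := by rw [h3]
    _ = b ^ N * (s * n * s⁻¹) * (b ^ N)⁻¹ := by group

/-- conjugates of contracted elements by a continuous homomorphism -/
theorem map_ctr {E' : Type} [Group E'] [TopologicalSpace E'] {f : E →* E'} (hf : Continuous f)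
    {b n : E} (hn : n ∈ Ctr b) : f n ∈ Ctr (f b) := by
  have h1 := (hf.tendsto 1).comp hn
  rw [map_one] at h1
  refine h1.congr fun N => ?_
  simp only [Function.comp_apply, map_mul, map_inv, map_pow]

/-- a set with the relative Moore property: vectors fixed by `R` are fixed by `R'` -/
def MRel (R R' : Set E) : Prop :=
  ∀ (F : Type) [NormedAddCommGroup F] [InnerProductSpace ℂ F] [CompleteSpace F]
    (u : E →* (F →L[ℂ] F)), (∀ g ξ, ‖u g ξ‖ = ‖ξ‖) → (∀ ξ, Continuous fun g => u g ξ) →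
    ∀ ξ, (∀ g ∈ R, u g ξ = ξ) → ∀ g ∈ R', u g ξ = ξ

theorem MRel.trans_moore {R R' : Set E} (h : MRel R R') (h' : Moore R') : Moore R := by
  intro F _ _ _ u hu hc ξ hξ
  exact h' F u hu hc ξ (h F u hu hc ξ hξ)

theorem MRel.of_moore {E' : Type} [Group E'] [TopologicalSpace E'] {f : E →* E'}
    (hf : Continuous f) {R : Set E} (h : Moore R) {Q : Set E'} (hQ : ∀ g ∈ R, f g ∈ Q) :
    MRel Q (Set.range f) := by
  intro F _ _ _ u hu hc ξ hξ
  rintro _ ⟨g, rfl⟩
  exact h F (u.comp f) (fun g ξ => hu _ ξ) (fun ξ => (hc ξ).comp hf) ξ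
    (fun g hg => hξ _ (hQ g hg)) g

end gen

/-! ### The contracted groups of the wall element -/

section sl

variable {k : Type} [NontriviallyNormedField k] {N : ℕ}

theorem nc_eq {g : GG k N} (hg : g ∈ Nc (Pi.single 0 1 : Fin (N + 1) → k)) :
    ∃ φ, g = ur 0 φ := by
  obtain ⟨φ, h1, h2⟩ := hg
  rw [dotProduct_single, mul_one] at h1
  refine ⟨φ, Subtype.ext ?_⟩
  rw [h2, ur_coe]
  ext x y
  rw [Matrix.add_apply, Matrix.one_apply, Matrix.vecMulVec_apply, uM, Pi.single_apply]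
  congr 1
  by_cases hx : x = 0
  · by_cases hy : y = 0
    · simp [hx, hy, h1]
    · simp [hx, hy]
  · simp [hx]

theorem nh_eq {g : GG k N} (hg : g ∈ Nh (Pi.single 0 1 : Fin (N + 1) → k)) :
    ∃ φ, g = ct (ur 0 φ) := by
  obtain ⟨v, h1, h2⟩ := hg
  rw [single_dotProduct, one_mul] at h1
  refine ⟨-v, Subtype.ext ?_⟩
  have h3 : (ct (ur 0 (-v) : GG k N)).1 = (((ur 0 (-v) : GG k N)⁻¹).1)ᵀ := rfl
  rw [h2, h3, H368.SN.ur_inv, neg_neg, ur_coe]
  ext x y
  rw [Matrix.add_apply, Matrix.one_apply, Matrix.vecMulVec_apply, Matrix.transpose_apply, uM,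
    Pi.single_apply]
  by_cases hy : y = 0
  · by_cases hx : x = 0
    · simp [hx, hy, h1]
    · simp [hx, hy, Ne.symm hx]
  · simp [hy, eq_comm]

theorem ur_mem {w : kˣ} (hw : ‖(w : k)‖ < 1) (φ : Fin (N + 1) → k) :
    ur 0 φ ∈ Ctr (bw w : GG k N)⁻¹ := by
  rw [mem_ctr_inv]
  exact ur_ctr hw φ

theorem ct_ur_mem {w : kˣ} (hw : ‖(w : k)‖ < 1) (φ : Fin (N + 1) → k) :
    ct (ur 0 φ) ∈ Ctr (bw w : GG k N) := by
  have h1 := map_ctr (f := (ct : GG k N →* GG k N)) ct_cont (ur_mem hw φ)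
  rwa [map_inv, ct_bw, inv_inv] at h1

variable [ProperSpace k]

/-- **Moore property of the contracted group**, `SL_(N+1)(k)`. -/
theorem moore_ctr_sl (hk : H933.LocK k) (hN : 1 ≤ N) {w : kˣ} (hw : ‖(w : k)‖ < 1) :
    Moore (Ctr (bw w : GG k N)) := by
  have h0 : (Pi.single 0 1 : Fin (N + 1) → k) ≠ 0 := H368.SN.y0_ne
  intro F _ _ _ u hu hc ξ hξ
  refine moore_Nh hk (by omega : 2 ≤ N + 1) h0 F u hu hc ξ fun g hg => hξ g ?_
  obtain ⟨φ, rfl⟩ := nh_eq hg
  exact ct_ur_mem hw φ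

theorem moore_ctr_sl_inv (hk : H933.LocK k) (hN : 1 ≤ N) {w : kˣ} (hw : ‖(w : k)‖ < 1) :
    Moore (Ctr (bw w : GG k N)⁻¹) := by
  have h0 : (Pi.single 0 1 : Fin (N + 1) → k) ≠ 0 := H368.SN.y0_ne
  intro F _ _ _ u hu hc ξ hξ
  refine moore_Nc hk (by omega : 2 ≤ N + 1) h0 F u hu hc ξ fun g hg => hξ g ?_
  obtain ⟨φ, rfl⟩ := nc_eq hg
  exact ur_mem hw φ

/-! ### Any source group -/

variable {E : Type} [Group E] [TopologicalSpace E] {ι : GG k N →* E}

/-- vectors fixed by the contracted group are fixed by the image of `SL_(N+1)(k)` -/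
theorem mrel_ctr (hk : H933.LocK k) (hN : 1 ≤ N) {w : kˣ} (hw : ‖(w : k)‖ < 1)
    (hι : Continuous ι) : MRel (Ctr (ι (bw w))) (Set.range ι) :=
  MRel.of_moore hι (moore_ctr_sl hk hN hw) fun _ hg => map_ctr hι hg

theorem mrel_ctr_inv (hk : H933.LocK k) (hN : 1 ≤ N) {w : kˣ} (hw : ‖(w : k)‖ < 1)
    (hι : Continuous ι) : MRel (Ctr (ι (bw w))⁻¹) (Set.range ι) :=
  MRel.of_moore hι (moore_ctr_sl_inv hk hN hw) fun _ hg => by
    rw [← map_inv]
    exact map_ctr hι hg

/-- **Moore property of the contracted group**, any source in which the image of `SL_(N+1)(k)` has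
the Moore property (for example `ι` surjective). -/
theorem moore_ctr (hk : H933.LocK k) (hN : 1 ≤ N) {w : kˣ} (hw : ‖(w : k)‖ < 1)
    (hι : Continuous ι) (hE : Moore (Set.range ι)) : Moore (Ctr (ι (bw w))) :=
  (mrel_ctr hk hN hw hι).trans_moore hE

theorem moore_ctr_inv (hk : H933.LocK k) (hN : 1 ≤ N) {w : kˣ} (hw : ‖(w : k)‖ < 1)
    (hι : Continuous ι) (hE : Moore (Set.range ι)) : Moore (Ctr (ι (bw w))⁻¹) :=
  (mrel_ctr_inv hk hN hw hι).trans_moore hE

omit [ProperSpace k] in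
theorem moore_range (hs : Function.Surjective ι) : Moore (Set.range ι) := by
  intro F _ _ _ u hu hc ξ hξ g
  exact hξ g (hs g)

/-! ### The group `S = SL_N(k)` -/

omit [ProperSpace k] in
theorem bw_comm_blk (w : kˣ) (s : SpecialLinearGroup (Fin N) k) :
    Commute (bw w : GG k N) (blk k N s) := by
  apply Subtype.ext
  change Matrix.diagonal _ * bm s.1 = bm s.1 * Matrix.diagonal _
  ext i j
  rw [diagonal_mul, mul_diagonal]
  refine Fin.cases ?_ (fun i => ?_) i <;> refine Fin.cases ?_ (fun j => ?_) j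
  · rw [mul_comm]
  · rw [bm_zs, mul_zero, zero_mul]
  · rw [bm_sz, mul_zero, zero_mul]
  · rw [if_neg (Fin.succ_ne_zero i), if_neg (Fin.succ_ne_zero j), mul_comm]

/-- `θ : SL_N(k) →* E` -/
noncomputable def th (ι : GG k N →* E) : SpecialLinearGroup (Fin N) k →* E := ι.comp (blk k N)

omit [ProperSpace k] in
theorem th_cont (hι : Continuous ι) : Continuous (th ι) := hι.comp continuous_blk

omit [ProperSpace k] in
theorem th_comm (w : kˣ) (s : SpecialLinearGroup (Fin N) k) : Commute (th ι s) (ι (bw w)) :=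
  ((bw_comm_blk w s).map ι).symm

omit [ProperSpace k] in
/-- the field `cz` of `H618.HMK.Base` -/
theorem cz (w : kˣ) (n : ℕ) (s : SpecialLinearGroup (Fin N) k) :
    th ι s * ι (bw w) ^ n = ι (bw w) ^ n * th ι s := ((th_comm w s).pow_right n).eq

omit [ProperSpace k] in
theorem cz_inv (w : kˣ) (n : ℕ) (s : SpecialLinearGroup (Fin N) k) :
    th ι s * (ι (bw w))⁻¹ ^ n = (ι (bw w))⁻¹ ^ n * th ι s :=
  (((th_comm w s).inv_right).pow_right n).eq

omit [ProperSpace k] in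
/-- the field `nrm` of `H618.HMK.Base` -/
theorem nrm [IsTopologicalGroup E] (w : kˣ) (s : SpecialLinearGroup (Fin N) k) :
    ∀ n ∈ Ctr (ι (bw w)), th ι s * n * (th ι s)⁻¹ ∈ Ctr (ι (bw w)) :=
  fun _ hn => nrm_ctr (th_comm w s) hn

omit [ProperSpace k] in
theorem nrm_inv [IsTopologicalGroup E] (w : kˣ) (s : SpecialLinearGroup (Fin N) k) :
    ∀ n ∈ Ctr (ι (bw w))⁻¹, th ι s * n * (th ι s)⁻¹ ∈ Ctr (ι (bw w))⁻¹ :=
  fun _ hn => nrm_ctr ((th_comm w s).inv_right) hn

/-- Howe–Moore for `S`. -/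
theorem hm_S (hk : H933.LocK k) (hN : 2 ≤ N) : H933.HoweMoore (SpecialLinearGroup (Fin N) k) :=
  H933.hm_sl hk hN

end sl

end Vale.Agent.P092.H307.Gb
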